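import Vale.Agent.P088.R2.H281.A.Win
import Vale.Agent.P088.R2.H238.C.Nu

/-!
# P088, stage 3: the numbers where the near leaves `zI`, `z2a`, `zB`, `z2b` are alive
-/

open Set Filter
open scoped ContDiff Topology

noncomputable section

namespace Vale.Agent.P088.R2.H972.EP

open Vale.Agent.P088.LR Vale.Agent.P088.HY
open Vale.Agent.P088.R2.H31.EP Vale.Agent.P088.R2.H867.EP
open Vale.Agent.P088.R2.H281.A Vale.Agent.P088.R2.H238.C

variable {n : ℕ} {q : Cst} {d : Pk n} {z : VV n}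

/-- The four near leaves. -/
def Nz (k : Zo) : Prop := k = .zI ∨ k = .z2a ∨ k = .zB ∨ k = .z2b

theorem Nz.near {k : Zo} (h : Nz k) : Near k := by
  unfold Nz at h
  unfold Near
  tauto

theorem Nz.ne {k : Zo} (h : Nz k) : k ≠ .z0 := by
  rcases h with rfl | rfl | rfl | rfl <;> decide

/-- **The numbers** where the near leaf `k` is alive. -/
structure NkN (q : Cst) (d : Pk n) (k : Zo) (z : VV n) : Prop where
  fin : FinOk q d z
  M0 : q.M₀ ≤ d.N q z
  NE : d.N q z ≤ q.aC * d.E q z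
  r : d.r2 z ≤ 4 * q.c₀ ^ 2
  I : k = .zI ∨ k = .z2a → NuI q d (d.u q z) ∧ d.E q z ≤ 2 * d.N q z ^ (13 / 5 : ℝ)
  ti : k = .zI → d.m q z ≤ 2 * (q.cK * d.Kf q z)
  ta : k = .z2a → q.cK * d.Kf q z ≤ d.m q z
  B : k = .zB ∨ k = .z2b → d.N q z ^ (13 / 5 : ℝ) ≤ d.E q z
  tB : k = .zB → d.m q z ≤ 2 * q.Λ * d.m₁ q (d.u q z)
  tb : k = .z2b → d.m₁ q (d.u q z) ≤ d.m q z

theorem exp_rpow_log {x a : ℝ} (hx : 0 < x) : Real.exp (a * Real.log x) = x ^ a := by
  rw [Real.rpow_def_of_pos hx, mul_comm]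

theorem nkN (hq : WinC q) (T : Th q) (h : PkOk q d) (s : LitSm q d) {k : Zo} (hk : Nz k)
    (hz : d.ch q k z ≠ 0) : NkN q d k z := by
  have hA : Alive Fl (d.cv q) k z := hz
  have hf := fin_alive hq h (Or.inl hk.near) hz
  have hN := N_pos h T (d.u q z)
  have hR := T.R0
  have h0 := alive_e0 (P := d.cp q) (u := d.u q) (X := d.X q) Fl_pair s.cp hA hk.near hk.ne
  have hNE : d.N q z ≤ q.aC * d.E q z := by
    have h1 : -Real.log q.aC ≤ d.u q z - Real.log (deriv d.Φ (d.u q z)) := h0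
    have h2 : Real.log (deriv d.Φ (d.u q z)) ≤ Real.log (q.aC * Real.exp (d.u q z)) := by
      rw [Real.log_mul T.aC0.ne' (Real.exp_pos _).ne', Real.log_exp]
      linarith
    exact (Real.log_le_log_iff hN (mul_pos T.aC0 (Real.exp_pos _))).1 h2
  have hr := alive_r (P := d.cp q) (u := d.u q) (X := d.X q) Fl_pair s.cp hA hk.near
  refine ⟨hf, N_ge h _, hNE, hr, fun hc => ?_, fun hc => ?_, fun hc => ?_, fun hc => ?_,
    fun hc => ?_, fun hc => ?_⟩
  · have h1 := alive_C (P := d.cp q) (u := d.u q) (X := d.X q) Fl_pair s.cp hA hc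
    have h2 : d.u q z - 13 / 5 * Real.log (deriv d.Φ (d.u q z)) ≤ 0 + Real.log 2 := h1
    have h3 : d.E q z ≤ 2 * d.N q z ^ (13 / 5 : ℝ) := by
      have h4 : Real.exp (d.u q z) ≤
          Real.exp (Real.log 2 + 13 / 5 * Real.log (deriv d.Φ (d.u q z))) :=
        Real.exp_le_exp.2 (by linarith)
      rw [Real.exp_add, Real.exp_log (by norm_num), exp_rpow_log hN] at h4
      exact h4
    refine ⟨nuI h T hNE ?_ ?_, h3⟩
    · refine (show Real.exp (d.u q z) ≤ 2 * deriv d.Φ (d.u q z) ^ (13 / 5 : ℝ) from h3).trans ?_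
      have := Real.rpow_nonneg hN.le (13 / 5)
      linarith
    · have h5 := hf.ua
      have h6 := uta_utb (d := d) T
      linarith
  · subst hc
    have h1 := alive_zI (P := d.cp q) (u := d.u q) (X := d.X q) Fl_pair s.cp hA
    exact h1
  · subst hc
    exact alive_z2a (P := d.cp q) (u := d.u q) (X := d.X q) Fl_pair s.cp hA
  · have h1 := alive_B (P := d.cp q) (u := d.u q) (X := d.X q) Fl_pair s.cp hA hc
    have h2 : 0 ≤ d.u q z - 13 / 5 * Real.log (deriv d.Φ (d.u q z)) := h1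
    have h4 : Real.exp (13 / 5 * Real.log (deriv d.Φ (d.u q z))) ≤ Real.exp (d.u q z) :=
      Real.exp_le_exp.2 (by linarith)
    rw [exp_rpow_log hN] at h4
    exact h4
  · subst hc
    exact alive_zB (P := d.cp q) (u := d.u q) (X := d.X q) Fl_pair s.cp (s.rq0 z) hA
  · subst hc
    exact alive_z2b (P := d.cp q) (u := d.u q) (X := d.X q) Fl_pair s.cp (s.rq0 z) hA

/-- **The numbers, EvC form.** -/
theorem evNkN (n : ℕ) : EvC fun q => ∀ d : Pk n, PkOk q d → ∀ k, Nz k → ∀ z, d.ch q k z ≠ 0 →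
    NkN q d k z :=
  ((evWin.and EvC.thr).and (EvC.litSm n)).mono fun q hq d h k hk z hz =>
    nkN hq.1.1 hq.1.2 h (hq.2 d h) hk hz

end Vale.Agent.P088.R2.H972.EP
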