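import Vale.Agent.P088.R2.H972.EP.Num
import Vale.Agent.P088.R2.H932.EP.Pk3
import Vale.Agent.P088.R2.H867.Z.Cz2
import Vale.Agent.P088.R2.H205.C.SpecI

/-!
# P088, stage 3: sizes of the derivatives of the cut-offs `zI`, `z2a`, `z2b` in the cost letters
-/

open Set Filter
open scoped ContDiff Topology

noncomputable section

namespace Vale.Agent.P088.R2.H972.EP

open Vale.Agent.P088.LR Vale.Agent.P088.HY
open Vale.Agent.P088.R2.H31.EP Vale.Agent.P088.R2.H867.EP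
open Vale.Agent.P088.R2.H281.A Vale.Agent.P088.R2.H238.C
open Vale.Agent.P088.R2.H464.Cu (rq)
open Vale.Agent.P088.R2.H932.EP (JB ep wt wt_nonneg NrC cN cN_nb' αc evNr)
open Vale.Agent.P088.R2.H932.EP.NrC (Sα Sβ Calm)
open Vale.Agent.P088.R2.H205.CP (gq gp dq dp)
open Vale.Agent.P088.R2.H867.Z (Zc Zc_le dx_ep dy_ep)

variable {n : ℕ} {q : Cst} {d : Pk n} {z : VV n}

/-- The constant of the first derivatives of the near cut-offs. -/
def a0 (n : ℕ) (q : Cst) : ℝ := BF * (7 * cN n q)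

theorem a0_nb (n : ℕ) : NB_ηc (a0 n) := fun q => by
  unfold a0
  rw [cN_nb' n q]

theorem a0_nn (hq : NrC n q) : 0 ≤ a0 n q := by
  have h1 := H932.EP.NrC.BF0
  have h2 := hq.cN_nn
  unfold a0
  positivity

theorem Sa_le (hq : NrC n q) (hη : q.ηc ≤ 1) (d : Pk n) (k : Zo) (z : VV n) :
    Sα d q k z ≤ 7 * cN n q := by
  have hC := hq.cN_nn
  have hR := hq.R0
  have h1 : ∀ i ∈ path k, on (d.cv q i z) * αc (cN n q) q i ≤ cN n q := by
    intro i _
    have h2 : αc (cN n q) q i ≤ cN n q := by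
      cases i <;> simp only [αc] <;> first
        | exact le_rfl
        | exact div_le_self hC (by linarith)
        | exact mul_le_of_le_one_right hC hη
    calc on (d.cv q i z) * αc (cN n q) q i ≤ 1 * αc (cN n q) q i :=
          mul_le_mul_of_nonneg_right (on_le _) (hq.αc_nn i)
      _ ≤ cN n q := by rw [one_mul]; exact h2
  have h3 : ((path k).card : ℝ) ≤ 7 := by
    have : (path k).card ≤ 7 := by cases k <;> decide
    exact_mod_cast this
  calc Sα d q k z ≤ ∑ _i ∈ path k, cN n q := Finset.sum_le_sum h1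
    _ = (path k).card * cN n q := by rw [Finset.sum_const, nsmul_eq_mul]
    _ ≤ 7 * cN n q := mul_le_mul_of_nonneg_right h3 hC

/-- First derivatives off the diagonal. -/
theorem ch_d (hq : NrC n q) (hη : q.ηc ≤ 1) (h : PkOk q d) {k : Zo} (hk : Near k)
    (hp : 0 < rq (gi d.s₁) z) (i : Fin n ⊕ Fin n) :
    |fderiv ℝ (d.ch q k) z (ep i)| ≤ a0 n q * wt (rq (gi d.s₁) z) i := by
  refine ((hq.chJ h hk hp).d1 i).trans (mul_le_mul_of_nonneg_right ?_ (wt_nonneg _ _))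
  exact mul_le_mul_of_nonneg_left (Sa_le hq hη d k z) H932.EP.NrC.BF0

/-- First derivatives off the layers `r`, `t`, `co`. -/
theorem ch_d1 (hq : NrC n q) (hη : q.ηc ≤ 1) (h : PkOk q d) {k : Zo} (hk : Near k)
    (hc : Calm d q k z) (i : Fin n ⊕ Fin n) : |fderiv ℝ (d.ch q k) z (ep i)| ≤ a0 n q := by
  refine ((hq.chJ1 h hk hc).d1 i).trans ?_
  rw [mul_one]
  exact mul_le_mul_of_nonneg_left (Sa_le hq hη d k z) H932.EP.NrC.BF0

theorem dq_ep {χ : VV n → ℝ} (i : Fin n) : dq i χ z = fderiv ℝ χ z (ep (Sum.inr i)) := by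
  unfold H205.CP.dq
  rw [dx_ep, dy_ep]
  ring

theorem dp_ep {χ : VV n → ℝ} (i : Fin n) : dp i χ z = fderiv ℝ χ z (ep (Sum.inl i)) := by
  unfold H205.CP.dp
  rw [dx_ep, dy_ep]
  ring

theorem sum_sq_le {f : Fin n → ℝ} {b : ℝ} (h : ∀ i, f i ^ 2 ≤ b) : ∑ i, f i ^ 2 ≤ n * b := by
  refine (Finset.sum_le_sum fun i _ => h i).trans (le_of_eq ?_)
  rw [Finset.sum_const, Finset.card_univ, Fintype.card_fin, nsmul_eq_mul]

/-- `|D_p χ|²`. -/
theorem gp_le (hq : NrC n q) (hη : q.ηc ≤ 1) (h : PkOk q d) {k : Zo} (hk : Near k) (z : VV n) :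
    gp (d.ch q k) z ≤ n * a0 n q ^ 2 := by
  have h0 := a0_nn hq
  refine sum_sq_le fun i => ?_
  rw [dp_ep]
  have h1 : |fderiv ℝ (d.ch q k) z (ep (Sum.inl i))| ≤ a0 n q := by
    rcases ((hq.sm d h).rq0 z).eq_or_lt with hp | hp
    · exact ch_d1 hq hη h hk (hq.calm_diag h k hp.symm) _
    · have := ch_d hq hη h hk hp (Sum.inl i)
      simpa [H932.EP.wt] using this
  calc fderiv ℝ (d.ch q k) z (ep (Sum.inl i)) ^ 2 = |fderiv ℝ (d.ch q k) z (ep (Sum.inl i))| ^ 2 :=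
        (sq_abs _).symm
    _ ≤ a0 n q ^ 2 := pow_le_pow_left₀ (abs_nonneg _) h1 2

/-- `|D_q χ|²` in region I. -/
theorem gq_le (hq : NrC n q) (hη : q.ηc ≤ 1) (h : PkOk q d) (hc0 : 0 < q.c₀) (hcK : 0 < q.cK)
    (z : VV n) : gq (d.ch q .zI) z ≤
      n * (a0 n q ^ 2 * (1 + 2 / q.c₀ ^ 2 + 2 * d.E q z / (q.cK * d.Kf q z))) := by
  have h0 := a0_nn hq
  have hk : Near .zI := by unfold Near; tauto
  have hE : 0 < d.E q z := Real.exp_pos _
  have hK : 0 < d.Kf q z := K_pos h _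
  refine sum_sq_le fun i => ?_
  rw [dq_ep]
  have key : |fderiv ℝ (d.ch q .zI) z (ep (Sum.inr i))| ^ 2 ≤
      a0 n q ^ 2 * (1 + 2 / q.c₀ ^ 2 + 2 * d.E q z / (q.cK * d.Kf q z)) := by
    by_cases hc : Calm d q .zI z
    · have h1 := pow_le_pow_left₀ (abs_nonneg _) (ch_d1 hq hη h hk hc (Sum.inr i)) 2
      refine h1.trans (le_mul_of_one_le_right (sq_nonneg _) ?_)
      have : 0 ≤ 2 / q.c₀ ^ 2 + 2 * d.E q z / (q.cK * d.Kf q z) := by positivity
      linarith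
    · have h2 : 0 < rq (gi d.s₁) z ∧
          (rq (gi d.s₁) z)⁻¹ ≤ 2 / q.c₀ ^ 2 + 2 * d.E q z / (q.cK * d.Kf q z) := by
        unfold H932.EP.NrC.Calm at hc
        push Not at hc
        obtain ⟨i, hi, hi', h3, h4⟩ := hc
        have p1 : 0 ≤ 2 / q.c₀ ^ 2 := by positivity
        have p2 : 0 ≤ 2 * d.E q z / (q.cK * d.Kf q z) := by positivity
        rcases hi' with rfl | rfl | rfl
        · have h5 : q.c₀ ^ 2 ≤ 2 * rq (gi d.s₁) z := tauR_ge hc0 h3.le
          have h6 : 0 < q.c₀ ^ 2 := by positivity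
          have h7 : 0 < rq (gi d.s₁) z := by linarith
          refine ⟨h7, ?_⟩
          have : (rq (gi d.s₁) z)⁻¹ ≤ 2 / q.c₀ ^ 2 := by
            rw [inv_eq_one_div, div_le_div_iff₀ h7 h6]
            linarith
          linarith
        · have h5 : q.cK * d.Kf q z ≤ d.E q z * (2 * rq (gi d.s₁) z) :=
            tauT_ge (K := deriv (deriv d.Φ)) (u := d.u q) hcK hK h3.le
          have h6 : 0 < q.cK * d.Kf q z := by positivity
          have h7 : 0 < rq (gi d.s₁) z := by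
            by_contra hc
            have := mul_nonpos_of_nonneg_of_nonpos hE.le (by linarith : 2 * rq (gi d.s₁) z ≤ 0)
            linarith
          refine ⟨h7, ?_⟩
          have : (rq (gi d.s₁) z)⁻¹ ≤ 2 * d.E q z / (q.cK * d.Kf q z) := by
            rw [inv_eq_one_div, div_le_div_iff₀ h7 h6]
            linarith
          linarith
        · exact absurd hi (by decide)
      have h1 := ch_d hq hη h hk h2.1 (Sum.inr i)
      have h5 : wt (rq (gi d.s₁) z) (Sum.inr i) = (√(rq (gi d.s₁) z))⁻¹ := rfl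
      have h6 := pow_le_pow_left₀ (abs_nonneg _) h1 2
      rw [h5, mul_pow, inv_pow, Real.sq_sqrt h2.1.le] at h6
      refine h6.trans (mul_le_mul_of_nonneg_left ?_ (sq_nonneg _))
      linarith [h2.2]
  rwa [sq_abs] at key

/-- **The letter of zone II.** -/
theorem Zc_small (hq : NrC n q) (hη : q.ηc ≤ 1) (h : PkOk q d) {k : Zo} (hk : Near k)
    (hr : d.r2 z ≤ 4 * q.c₀ ^ 2) {kz : VV n → ℝ} {K2 CK : ℝ} (hK2 : 0 ≤ K2) (hCK : 0 < CK)
    (hm : 0 < d.m q z) (hN : 0 ≤ d.N q z) (h1 : kz z ≤ d.m q z)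
    (h2 : CK * (1 + d.N q z ^ 2 / d.m q z ^ 2) ≤ kz z) :
    Zc K2 1 (rq (gi d.s₁)) (d.E q) (d.N q) kz (d.ch q k) z ≤
      80 * n * K2 * a0 n q ^ 2 / CK := by
  have hE : 0 < d.E q z := Real.exp_pos _
  have hn : (0 : ℝ) ≤ n := Nat.cast_nonneg n
  have em : d.m q z = d.E q z * (2 * rq (gi d.s₁) z) := rfl
  have hρ : 0 < rq (gi d.s₁) z := by
    rw [em] at hm
    by_contra hc
    have := mul_nonpos_of_nonneg_of_nonpos hE.le (by linarith : 2 * rq (gi d.s₁) z ≤ 0)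
    linarith
  have hρ1 : rq (gi d.s₁) z ≤ 1 := by
    have e : d.r2 z = 2 * rq (gi d.s₁) z := rfl
    have h3 := hq.c1
    have h4 : 0 < q.c₀ := (hq.sm d h).cp.c₀
    nlinarith
  have ha := a0_nn hq
  have hk0 : 0 < kz z := lt_of_lt_of_le (by positivity) h2
  have J := hq.chJ h hk hρ
  have J' : JB ep (wt (rq (gi d.s₁) z)) (d.ch q k) (a0 n q) _ z := J.mono (wt_nonneg _)
    (mul_le_mul_of_nonneg_left (Sa_le hq hη d k z) H932.EP.NrC.BF0) le_rfl
  refine (Zc_le hK2 one_pos hk0 hN hE hρ hρ1 J').trans ?_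
  rw [← em, one_mul, div_le_div_iff₀ hk0 hCK]
  set X := d.N q z / d.m q z with hX
  have hX0 : 0 ≤ X := by positivity
  have eX : d.N q z ^ 2 / d.m q z ^ 2 = X ^ 2 := by rw [hX, div_pow]
  rw [eX] at h2
  have h3 : 1 + (d.N q z + kz z) / d.m q z ≤ 2 + X := by
    rw [add_div]
    have : kz z / d.m q z ≤ 1 := (div_le_one hm).2 h1
    linarith
  have h4 : (1 + (d.N q z + kz z) / d.m q z) ^ 2 ≤ 8 * (1 + X ^ 2) := by
    have h5 : 0 ≤ 1 + (d.N q z + kz z) / d.m q z := by positivity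
    have h6 := pow_le_pow_left₀ h5 h3 2
    nlinarith [sq_nonneg (X - 2)]
  have h7 : 0 ≤ 10 * n * K2 * a0 n q ^ 2 := by positivity
  calc 10 * n * K2 * (a0 n q * (1 + (d.N q z + kz z) / d.m q z)) ^ 2 * CK
      = 10 * n * K2 * a0 n q ^ 2 * ((1 + (d.N q z + kz z) / d.m q z) ^ 2 * CK) := by ring
    _ ≤ 10 * n * K2 * a0 n q ^ 2 * (8 * (1 + X ^ 2) * CK) := by
        refine mul_le_mul_of_nonneg_left ?_ h7
        exact mul_le_mul_of_nonneg_right h4 hCK.le
    _ = 80 * n * K2 * a0 n q ^ 2 * (CK * (1 + X ^ 2)) := by ring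
    _ ≤ 80 * n * K2 * a0 n q ^ 2 * kz z := mul_le_mul_of_nonneg_left h2 (by positivity)

end Vale.Agent.P088.R2.H972.EP
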