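import Vale.Agent.P088.R2.H972.EP.Pa

/-!
# P088, stage 3: payments near | near, the costs of region I; the final theorem
-/

open Set Filter
open scoped ContDiff Topology

noncomputable section

namespace Vale.Agent.P088.R2.H972.EP

open Vale.Agent.P088.LR Vale.Agent.P088.HY
open Vale.Agent.P088.R2.H31.EP Vale.Agent.P088.R2.H867.EP
open Vale.Agent.P088.R2.H281.A Vale.Agent.P088.R2.H238.C
open Vale.Agent.P088.R2.H464.Cu (rq)
open Vale.Agent.P088.R2.H932.EP (NrC evNr)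
open Vale.Agent.P088.R2.H867.Z (Zc sq1 sqp sq1_nn)
open Vale.Agent.P088.R2.H338.TC (Na rx ry)
open Vale.Agent.P088.R2.H972.E (N0 NN Mb Cc mst)
open Vale.Agent.P088.R2.H165
open Vale.Agent.P088.R2.H455.E (Lc Mz coz nu cTu Bas den)
open Vale.Agent.P088.R2.H551.E (fx fy)
open Vale.Agent.P088.R2.H558.G (RowPayW PayEW)

variable {n : ℕ} {q : Cst} {d : Pk n} {z : VV n}

/-- `Na` against `N`. -/
theorem Na_le (h : PkOk q d) (T : Th q) (f : FinOk q d z) : Na d z ≤ 3 * d.N q z := by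
  have h1 := u_near h z
  have h2 := f.ua
  have hR := T.R1
  have h3 := (abs_le.1 h1).1
  have h4 := N_comp h T (u := d.u0 z) (v := d.u q z) (by linarith) (by linarith)
  have h5 : |d.u0 z - d.u q z| ≤ 1 / 4 := by rw [abs_sub_comm]; exact h1
  have h6 : Real.exp (41 / 20 * |d.u0 z - d.u q z|) ≤ 3 := by
    have h7 : Real.exp (41 / 20 * |d.u0 z - d.u q z|) ≤ Real.exp 1 :=
      Real.exp_le_exp.2 (by linarith)
    have := Real.exp_one_lt_d9
    linarith
  have h8 : 0 < deriv d.Φ (d.u q z) := N_pos h T _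
  calc Na d z = deriv d.Φ (d.u0 z) := rfl
    _ ≤ deriv d.Φ (d.u q z) * Real.exp (41 / 20 * |d.u0 z - d.u q z|) := h4
    _ ≤ deriv d.Φ (d.u q z) * 3 := mul_le_mul_of_nonneg_left h6 h8.le
    _ = 3 * d.N q z := by unfold Pk.N; ring

/-- **The tubes are dead on the core.** -/
theorem tube_B (n : ℕ) : EvC fun q => ∀ d : Pk n, PkOk q d → ∀ z, d.ch q .zB z ≠ 0 →
    rx q d z ^ 2 + ry q d z ^ 2 = 0 := by
  have hM : EvC fun q => 64 * q.Λ / q.c₀ ^ 2 < q.M₀ ^ (74 / 100 : ℝ) :=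
    EvC.at_M₀ (fun q t => 64 * q.Λ / q.c₀ ^ 2 < t ^ (74 / 100 : ℝ)) fun q =>
    (tendsto_rpow_atTop (by norm_num : (0 : ℝ) < 74 / 100)).eventually_gt_atTop _
  refine (((evBf n).and hM).and (EvC.thr.and EvC.pos)).mono ?_
  rintro q ⟨⟨hB, hM⟩, T, hp⟩ d h z hz
  by_contra hc
  have B := hB d h
  have N := B.num .zB (by unfold Nz; tauto) z hz
  have hr := tube_r T.c0 (B.met z) hc
  have hm := N.tB rfl
  have hc2 : 0 < q.c₀ ^ 2 := by have := T.c0; positivity
  have hCB : 0 < q.CB := by linarith [hp.1.2.2.2.2.2.2.2.2.2]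
  have hs : 0 ≤ q.σ / (q.CB * q.R) := by
    have := T.σ0
    have := T.R0
    positivity
  have h1 : d.m₁ q (d.u q z) ≤ Real.exp (26 / 100 * d.u q z) :=
    H932.EP.m1x_le hs (d.ξ_is q) _
  have hΛ : 0 < q.Λ := Real.exp_pos _
  have hE : d.E q z = Real.exp (74 / 100 * d.u q z) * Real.exp (26 / 100 * d.u q z) := by
    rw [← Real.exp_add]
    show Real.exp (d.u q z) = _
    congr 1
    ring
  have hE1 : q.M₀ ≤ d.E q z := by
    have := N.NE
    have h3 := N.M0
    have h4 : q.aC * d.E q z ≤ 1 * d.E q z :=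
      mul_le_mul_of_nonneg_right (by linarith [T.aC1]) (Real.exp_pos _).le
    linarith
  have hp4 : q.M₀ ^ (74 / 100 : ℝ) ≤ Real.exp (74 / 100 * d.u q z) := by
    have h5 := Real.rpow_le_rpow (by linarith [T.M1]) hE1 (by norm_num : (0 : ℝ) ≤ 74 / 100)
    have h6 : d.E q z ^ (74 / 100 : ℝ) = Real.exp (74 / 100 * d.u q z) := by
      show Real.exp (d.u q z) ^ (74 / 100 : ℝ) = _
      rw [← Real.exp_mul]
      congr 1
      ring
    rwa [h6] at h5
  have e1 : d.m q z = d.E q z * d.r2 z := rfl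
  have hp := Real.exp_pos (26 / 100 * d.u q z)
  have h7 : d.E q z * (q.c₀ ^ 2 / 32) ≤ 2 * q.Λ * Real.exp (26 / 100 * d.u q z) := by
    have h8 : d.E q z * (q.c₀ ^ 2 / 32) ≤ d.E q z * d.r2 z :=
      mul_le_mul_of_nonneg_left hr (Real.exp_pos _).le
    have h9 : 2 * q.Λ * d.m₁ q (d.u q z) ≤ 2 * q.Λ * Real.exp (26 / 100 * d.u q z) :=
      mul_le_mul_of_nonneg_left h1 (by positivity)
    linarith
  rw [hE] at h7
  have h10 : 64 * q.Λ < Real.exp (74 / 100 * d.u q z) * q.c₀ ^ 2 := by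
    have hM' : 64 * q.Λ / q.c₀ ^ 2 < q.M₀ ^ (74 / 100 : ℝ) := hM
    have := lt_of_lt_of_le hM' hp4
    rwa [div_lt_iff₀ hc2] at this
  have h11 := mul_lt_mul_of_pos_right h10 hp
  nlinarith

/-- The constant of the tubes in zone II. -/
theorem tube_2 {L : Lc n} (hL : L.Ok) {A : Cst → ℝ} (hA : NB_CB A)
    (hF : EvC fun q => 0 < A q ∧ ∀ d : Pk n, PkOk q d → ∀ k, N2 k → ∀ z, d.ch q k z ≠ 0 →
      d.E q z * d.m q z / A q ≤ d.sx.F (d.W q) z ∧ d.E q z * d.m q z / A q ≤ d.sy.F (d.W q) z) :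
    EvC fun q => ∀ d : Pk n, PkOk q d → ∀ j, N2 j → ∀ z, d.ch q .zI z ≠ 0 → d.ch q j z ≠ 0 →
      L.CN q * (Na d z * (rx q d z ^ 2 + ry q d z ^ 2) * sq1 (d.ch q .zI) z) ≤
        gj L q / 68 * (d.E q z * d.m q z / A q) := by
  have hη := EvC.at_ηc (fun _ t => t ≤ 1) fun _ => sml_le one_pos
  have hM : EvC fun q => L.CN q * (2 * S1 n q) * 68 * 32 * A q / (gj L q * q.c₀ ^ 2) ≤ q.M₀ := by
    have h1 := EvC.at_M₀ (fun q t => L.CN q * (2 * S1 n q) * 68 * 32 * A q /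
      (gj L q * q.c₀ ^ 2) ≤ t) fun q => eventually_ge_atTop _
    refine h1.mono fun q hq => ?_
    have e1 := nb_c'_M₀ hL.CN.2 q
    have e2 := nb_ηc_M₀ (S1_nb n) q
    have e3 := nb_CB_M₀ hA q
    have e4 := nb_ηc_M₀ (gj_nb hL) q
    simp only [e1, e2, e3, e4] at hq
    exact hq
  refine (((evBf n).and (hF.and hM)).and ((EvC.thr.and (evNr n)).and hη)).mono ?_
  rintro q ⟨⟨hB, ⟨hA0, -⟩, hM⟩, ⟨T, hq⟩, hη⟩ d h j hj z hz hzj
  have B := hB d h
  have N := B.num .zI (Or.inl rfl) z hz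
  have hg := gj_pos hL q
  have hE : 0 < d.E q z := Real.exp_pos _
  have hN0 : 0 < d.N q z := N_pos h T _
  have hCN := hL.CN.1 q
  have hr0 : 0 ≤ d.r2 z := by
    have := B.rq0 z
    show 0 ≤ 2 * rq (gi d.s₁) z
    linarith
  have hm0 : 0 ≤ d.m q z := mul_nonneg hE.le hr0
  by_cases hc : rx q d z ^ 2 + ry q d z ^ 2 = 0
  · rw [hc]
    have : 0 ≤ gj L q / 68 * (d.E q z * d.m q z / A q) := by positivity
    simpa using this
  have hr := tube_r T.c0 (B.met z) hc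
  have hS := sq1_r (z := z) hq hη h (by unfold Near; tauto : Near .zI) T.c0 hr
  have hS0 := sq1_nn (d.ch q .zI) z
  have hc2 : 0 < q.c₀ ^ 2 := by have := T.c0; positivity
  have hNa := Na_le h T N.fin
  have hNa0 : 0 < Na d z := N_pos h T (d.u0 z)
  have hNaE : Na d z ≤ d.E q z := by
    have h1 := N.NE
    have h2 : q.aC * d.E q z ≤ 1 / 100 * d.E q z := mul_le_mul_of_nonneg_right T.aC1 hE.le
    linarith
  have hME : q.M₀ ≤ d.E q z := by
    have h1 := N.NE
    have h2 : q.aC * d.E q z ≤ 1 / 100 * d.E q z := mul_le_mul_of_nonneg_right T.aC1 hE.le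
    have := N.M0
    linarith
  have hS1 : 0 ≤ S1 n q := hS0.trans hS
  have h1 : L.CN q * (Na d z * (rx q d z ^ 2 + ry q d z ^ 2) * sq1 (d.ch q .zI) z) ≤
      L.CN q * (d.E q z * 2 * S1 n q) := by
    have hxy := rxy_le (q := q) (d := d) (z := z)
    gcongr
  refine h1.trans ?_
  have e1 : d.m q z = d.E q z * d.r2 z := rfl
  have h2 : L.CN q * (2 * S1 n q) * 68 * 32 * A q ≤ d.E q z * (gj L q * q.c₀ ^ 2) := by
    have := hM.trans hME
    rwa [div_le_iff₀ (by positivity)] at this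
  have h3 : gj L q / 68 * (d.E q z * (d.E q z * (q.c₀ ^ 2 / 32)) / A q) ≤
      gj L q / 68 * (d.E q z * d.m q z / A q) := by
    rw [e1]
    gcongr
  refine le_trans ?_ h3
  have e2 : gj L q / 68 * (d.E q z * (d.E q z * (q.c₀ ^ 2 / 32)) / A q) =
      d.E q z * (d.E q z * (gj L q * q.c₀ ^ 2)) / (68 * 32 * A q) := by ring
  rw [e2, le_div_iff₀ (by positivity)]
  have h4 := mul_le_mul_of_nonneg_left h2 hE.le
  linarith

/-- The constant for the costs of `zI`. -/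
def BI (L : Lc n) (q : Cst) : ℝ := L.CI q * 7 * 68 / gj L q

theorem BI_nb {L : Lc n} (hL : L.Ok) : NB_M₀ (BI L) := nb_ηc_M₀ fun q => by
  unfold BI
  rw [nb_c₀_ηc hL.CI.2 q, gj_nb hL q]

/-- The cost of region I. -/
theorem cost_I {L : Lc n} (hL : L.Ok) :
    EvC fun q => ∀ d : Pk n, PkOk q d → ∀ z, d.ch q .zI z ≠ 0 → ∀ G : VV n → ℝ,
      d.E q z * d.N q z / 7 ≤ G z →
        Cc (fx d.s₁) (fy d.s₂) (fun _ => 0) (fun _ => 0) (d.W q) (nu L.kz q d)
          (Tab.cI (nu L.kz q d) (L.CI q) (sq1 (d.ch q .zI)) (sqp (d.ch q .zI)))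
          (gj L q / 68) G z := by
  refine ((evBf n).and (row_I n (BI_nb hL))).mono ?_
  rintro q ⟨hB, hI⟩ d h z hz G hG
  have B := hB d h
  have hn0 := n0 (kz := L.kz) B.bas (B.rq0 z)
  have hg := gj_pos hL q
  have hCI := hL.CI.1 q
  obtain ⟨i1, i2⟩ := hI (by unfold BI; positivity) d h z hz
  have e : ∀ x : ℝ, L.CI q * x = gj L q / 68 * (BI L q * x / 7) := fun x => by
    unfold BI
    field_simp
  have hg' : 0 < gj L q / 68 := by positivity
  refine H972.E.cc_I0 hn0 hg'.le ?_ ?_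
  · show L.CI q * (d.E q z * sq1 (d.ch q .zI) z) ≤ gj L q / 68 * d.E q z ^ 2
    rw [e]
    refine mul_le_mul_of_nonneg_left ?_ hg'.le
    have : 0 ≤ d.E q z ^ 2 := sq_nonneg _
    linarith
  · show L.CI q * (d.E q z * sqp (d.ch q .zI) z + sq1 (d.ch q .zI) z) ≤ gj L q / 68 * G z
    rw [e]
    refine mul_le_mul_of_nonneg_left ?_ hg'.le
    linarith

/-- The cost of region I against the other near payers. -/
theorem cost_I' {L : Lc n} (hL : L.Ok) (hF : RowFE n) {j : Zo} (hj : Nz j) (hj' : j ≠ .zI) :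
    EvC fun q => ∀ d : Pk n, PkOk q d → ∀ z, d.ch q .zI z ≠ 0 → d.ch q j z ≠ 0 →
      ∀ G : VV n → ℝ, d.E q z * d.N q z / 7 ≤ G z → ∀ e : Cst → ℝ,
        Cc (fx d.s₁) (fy d.s₂) (fun _ => 0) (fun _ => 0) (d.W q) (nu L.kz q d) (coz L e q d .zI)
          (gj L q / 34) G z := by
  obtain ⟨A, hA, hF⟩ := hF
  refine (((evBf n).and (cost_I hL)).and ((tube_B n).and ((tube_2 hL hA hF).and
    (hF.and EvC.thr)))).mono ?_
  rintro q ⟨⟨hB, hI⟩, hT, h2, ⟨hA0, hF⟩, T⟩ d h z hz hzj G hG e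
  have B := hB d h
  have hn0 := n0 (kz := L.kz) B.bas (B.rq0 z)
  have hg := gj_pos hL q
  have c1 := hI d h z hz G hG
  have hN0 : 0 < d.N q z := N_pos h T _
  have hE : 0 < d.E q z := Real.exp_pos _
  have hG0 : 0 ≤ G z := le_trans (by positivity) hG
  have e0 : gj L q / 34 = gj L q / 68 + gj L q / 68 := by ring
  rw [e0]
  refine H972.E.Cc.add c1 (H972.E.cc_Tu hn0 (by positivity) hG0 ?_ ?_)
  all_goals
    rcases hj with rfl | rfl | rfl | rfl
    · exact absurd rfl hj'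
    · have h3 := h2 d h .z2a (Or.inl rfl) z hz hzj
      have h4 := hF d h .z2a (Or.inl rfl) z hzj
      refine h3.trans (mul_le_mul_of_nonneg_left ?_ (by positivity))
      first
        | exact h4.1
        | exact h4.2
    · rw [hT d h z hzj, mul_zero, zero_mul, mul_zero]
      first
        | exact mul_nonneg (by positivity) hn0.F₁
        | exact mul_nonneg (by positivity) hn0.F₂
    · have h3 := h2 d h .z2b (Or.inr rfl) z hz hzj
      have h4 := hF d h .z2b (Or.inr rfl) z hzj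
      refine h3.trans (mul_le_mul_of_nonneg_left ?_ (by positivity))
      first
        | exact h4.1
        | exact h4.2

/-- The cost of region I against region I: the tube letters pay for the tube cost. -/
theorem pay_II {L : Lc n} (hL : L.Ok) (e : Cst → ℝ) : EvC fun q => ∀ d : Pk n, PkOk q d → ∀ z,
    d.ch q .zI z ≠ 0 → N0 (nu L.kz q d) z → d.E q z * d.N q z / 7 ≤ (nu L.kz q d).wI z →
      ∀ a b : VV n → ℝ,
        34 * den d q (coz L e q d .zI) a b z ≤ den d q (Mz L q d .zI) a b z := by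
  have hη := EvC.at_ηc (fun _ t => t ≤ 1) fun _ => sml_le one_pos
  have hM : EvC fun q => 34 * (L.CN q * S1 n q) / L.cN q ≤ q.M₀ := by
    have h1 := EvC.at_M₀ (fun q t => 34 * (L.CN q * S1 n q) / L.cN q ≤ t)
      fun q => eventually_ge_atTop _
    refine h1.mono fun q hq => ?_
    have e1 := nb_c'_M₀ hL.CN.2 q
    have e2 := nb_ηc_M₀ (S1_nb n) q
    have e3 := nb_c'_M₀ hL.cN.2 q
    simp only [e1, e2, e3] at hq
    exact hq
  refine (((evBf n).and (cost_I hL)).and ((hM.and (evNr n)).and (EvC.thr.and hη))).mono ?_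
  rintro q ⟨⟨hB, hI⟩, ⟨hM, hq⟩, T, hη⟩ d h z hz hn0 hG a b
  have B := hB d h
  have hg := gj_pos hL q
  have hN0 : 0 < d.N q z := N_pos h T _
  have hE : 0 < d.E q z := Real.exp_pos _
  have hG0 : 0 ≤ (nu L.kz q d).wI z := le_trans (by positivity) hG
  have hcI := hL.cI.1 q
  have hcN := hL.cN.1 q
  have hCN := hL.CN.1 q
  have hg1 : gj L q ≤ L.cI q := min_le_left _ _
  have c1 := hI d h z hz _ hG
  have p1 := H972.E.Mb.pay0 (q := 34) (H972.E.mb_MI0 (σ := fx d.s₁) (τ := fy d.s₂)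
    (v₁ := fun _ => 0) (v₂ := fun _ => 0) (W := d.W q) hn0 hcI.le) c1 hn0 hG0 (by norm_num)
    (by linarith) a b
  have hNa : q.M₀ ≤ Na d z := N_ge h (d.u0 z)
  have p2 := H972.E.tu_TL (σ := fx d.s₁) (τ := fy d.s₂) (v₁ := fun _ => 0) (v₂ := fun _ => 0)
    (W := d.W q) (z := z) (cN := L.cN q) (CN := L.CN q) (q := 34) (N := Na d) (ρx := rx q d)
    (ρy := ry q d) (Z := sq1 (d.ch q .zI)) hcN.le (by linarith [T.M1]) (fun hc => by
      have hr := tube_r T.c0 (B.met z) hc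
      have hS := sq1_r (z := z) hq hη h (by unfold Near; tauto : Near .zI) T.c0 hr
      have h1 : 34 * (L.CN q * sq1 (d.ch q .zI) z) ≤ 34 * (L.CN q * S1 n q) := by gcongr
      have h2 : 34 * (L.CN q * S1 n q) ≤ q.M₀ * L.cN q := (div_le_iff₀ hcN).1 hM
      have h3 : q.M₀ * L.cN q ≤ Na d z * L.cN q := mul_le_mul_of_nonneg_right hNa hcN.le
      linarith) a b
  have e1 : den d q (Mz L q d .zI) a b z =
      (Tab.MI (nu L.kz q d) (L.cI q)).dens (fx d.s₁) (fy d.s₂) (fun _ => 0) (fun _ => 0)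
        (d.W q) a b z + (H338.C.TL (L.cN q) (Na d) (rx q d) (ry q d)).dens (fx d.s₁) (fy d.s₂)
        (fun _ => 0) (fun _ => 0) (d.W q) a b z := H551.E.Q8.dens_add ..
  have e2 : den d q (coz L e q d .zI) a b z =
      (Tab.cI (nu L.kz q d) (L.CI q) (sq1 (d.ch q .zI)) (sqp (d.ch q .zI))).dens (fx d.s₁)
        (fy d.s₂) (fun _ => 0) (fun _ => 0) (d.W q) a b z +
      (cTu (L.CN q) (Na d) (rx q d) (ry q d) (sq1 (d.ch q .zI))).dens (fx d.s₁) (fy d.s₂)
        (fun _ => 0) (fun _ => 0) (d.W q) a b z := H551.E.Q8.dens_add ..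
  rw [e1, e2]
  linarith

/-- **The payments near | near** with the costs of region I and of zone II. -/
theorem pay_near {L : Lc n} (hL : L.Ok) (hK : RowKE L.kz) (hF : RowFE n) {k j : Zo}
    (hk : k = .zI ∨ N2 k) (hj : Nz j) : PayEW L k j := by
  refine PayEW.all fun e _ => ?_
  rcases hk with rfl | hk
  · by_cases hj' : j = .zI
    · subst hj'
      have hcK := EvC.at_cK (fun _ t => t ≤ 1) fun _ => sml_le one_pos
      refine (((pay_II hL e).and (evBf n)).and (EvC.thr.and hcK)).mono ?_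
      rintro q ⟨⟨h1, hB⟩, T, hcK⟩ d h z hz _ a b
      have B := hB d h
      have hn0 := n0 (kz := L.kz) B.bas (B.rq0 z)
      have N := B.num .zI (Or.inl rfl) z hz
      have hE : 0 < d.E q z := Real.exp_pos _
      have hNM : q.M₀ ≤ d.N q z := N.M0
      have hN0 : 1 ≤ d.N q z := T.M1.trans hNM
      have hNE : d.N q z ≤ d.E q z := N.NE.trans (by nlinarith [T.aC1])
      have hKf : 0 < d.Kf q z := K_pos h _
      have hm5 : d.m q z ≤ 5 * d.N q z := by
        have h1 : d.Kf q z ≤ 41 / 20 * d.N q z := (N.I (Or.inl rfl)).1.Kn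
        have h2 : q.cK * d.Kf q z ≤ 1 * d.Kf q z := mul_le_mul_of_nonneg_right hcK hKf.le
        linarith [N.ti rfl]
      exact h1 d h z hz hn0 (H972.E.wI_ge hN0 hNE hn0.m hm5) a b
    · refine ((payers hL hK hF).and ((cost_I' hL hF hj hj').and EvC.thr)).mono ?_
      rintro q ⟨h1, h2, T⟩ d h z hz hzj a b
      obtain ⟨hn0, G, hG, hM⟩ := h1 d h j hj z hzj
      have hN0 : 0 < d.N q z := N_pos h T _
      have hE : 0 < d.E q z := Real.exp_pos _
      exact H972.E.Mb.pay0 hM (h2 d h z hz hzj G hG e) hn0 (le_trans (by positivity) hG)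
        (by norm_num) (by linarith) a b
  · refine ((payers hL hK hF).and ((cost_II hL hK).and EvC.thr)).mono ?_
    rintro q ⟨h1, h2, T⟩ d h z hz hzj a b
    obtain ⟨hn0, G, hG, hM⟩ := h1 d h j hj z hzj
    have hN0 : 0 < d.N q z := N_pos h T _
    have hE : 0 < d.E q z := Real.exp_pos _
    have hG0 : 0 ≤ G z := le_trans (by positivity) hG
    exact H972.E.Mb.pay0 hM (h2 d h k hk z hz G hG0 e) hn0 hG0 (by norm_num) (by linarith) a b

end Vale.Agent.P088.R2.H972.EP
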