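import Vale.Agent.P088.R2.H972.EP.Pb
import Vale.Agent.P088.R2.H238.Z.KeP
import Vale.Agent.P088.R2.H850.E.F2

/-!
# P088, stage 3: payments near | near, without hypotheses
-/

open Set Filter
open scoped ContDiff Topology

noncomputable section

namespace Vale.Agent.P088.R2.H972.EP

open Vale.Agent.P088.R2.H31.EP Vale.Agent.P088.R2.H867.EP
open Vale.Agent.P088.R2.H455.E (Lc)
open Vale.Agent.P088.R2.H558.G (PayEW)

variable {n : ℕ}

/-- Row KE for helper942's weight. -/
theorem rowKE (hn : 1 ≤ n) : RowKE (n := n) (fun q d z => H942.Pk.kz q d z) := fun C hC =>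
  (H238.Z.ke hn C hC).mono fun _ h d ok k hk z hz => h d ok z (by
    rcases hk with rfl | rfl
    · exact Or.inl hz
    · exact Or.inr hz)

/-- Row FE. -/
theorem rowFE (hn : 1 ≤ n) : RowFE n := by
  have hn0 : (0 : ℝ) < n := by exact_mod_cast hn
  refine ⟨fun _ => 1024 * (n : ℝ) ^ 2, fun _ => rfl, (H850.E.f2A_ev hn).mono
    fun q h => ⟨by positivity, fun d ok k hk z hz => ?_⟩⟩
  have h1 := h d ok z (by
    rcases hk with rfl | rfl
    · exact Or.inl hz
    · exact Or.inr hz)
  rw [div_le_iff₀ (by positivity), div_le_iff₀ (by positivity)]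
  constructor <;> linarith [h1.1, h1.2]

/-- **The payments near | near** with the costs of region I and of zone II. -/
theorem pay_nn (hn : 1 ≤ n) {L : Lc n} (hL : L.Ok) (hkz : L.kz = fun q d z => H942.Pk.kz q d z)
    {k j : Zo} (hk : k = .zI ∨ N2 k) (hj : Nz j) : PayEW L k j :=
  pay_near hL (by rw [hkz]; exact rowKE hn) (rowFE hn) hk hj

end Vale.Agent.P088.R2.H972.EP
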