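import Vale.Agent.P088.R2.H972.E.NP
import Vale.Agent.P088.R2.H455.E.Lett

/-!
# P088, stage 3: the master density at points of the diagonal too, the tube letters
-/

open Set

noncomputable section

namespace Vale.Agent.P088.R2.H972.E

open Vale.Agent.P088.R2.H961.GW Vale.Agent.P088.R2.H644 Vale.Agent.P088.R2.H551.E
open Vale.Agent.P088.R2.H165.Tab Vale.Agent.P088.R2.H338.E
open Vale.Agent.P088.R2.H338.C (TL)
open Vale.Agent.P088.R2.H455.E (cTu)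

/-- The numbers of a near point, without the radius. -/
structure N0 {E : Type*} (ν : Nu E) (z : E) : Prop where
  En : 0 < ν.En z
  m : 0 ≤ ν.m z
  F₁ : 0 ≤ ν.F₁ z
  F₂ : 0 ≤ ν.F₂ z

theorem NN.n0 {E : Type*} {ν : Nu E} {z : E} (h : NN ν z) : N0 ν z := ⟨h.En, h.m, h.F₁, h.F₂⟩

variable {ι : Type*} [Fintype ι] {n : ℕ}
variable {σ τ : Sl (LR.V n × LR.V n) ι} {v₁ v₂ W a b : LR.V n × LR.V n → ℝ} {z : LR.V n × LR.V n}
variable {ν : Nu (LR.V n × LR.V n)} {M p p' : Q8 (LR.V n × LR.V n)} {c e e' q C : ℝ}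
  {G Z Zq Zp : LR.V n × LR.V n → ℝ}

theorem N0.mst (nn : N0 ν z) (hG : 0 ≤ G z) : 0 ≤ (mst ν G).dens σ τ v₁ v₂ W a b z := by
  have h2 := nn.En
  have h3 := nn.m
  have k0 := sqd_nonneg σ τ v₁ v₂ W a b z
  have k1 := Q8.nX_nonneg σ W a z
  have k2 := Q8.nX_nonneg τ W b z
  have k3 := Q8.nY_nonneg σ τ W a b z
  have k4 := nn.F₁
  have k5 := nn.F₂
  unfold Q8.dens E.mst
  simp only
  positivity

/-- **The payment.** -/
theorem Mb.pay0 (h : Mb σ τ v₁ v₂ W ν M c G z) (h' : Cc σ τ v₁ v₂ W ν p e G z) (nn : N0 ν z)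
    (hG : 0 ≤ G z) (hq : 0 ≤ q) (he : q * e ≤ c) (a b : LR.V n × LR.V n → ℝ) :
    q * p.dens σ τ v₁ v₂ W a b z ≤ M.dens σ τ v₁ v₂ W a b z := by
  have k0 := nn.mst (σ := σ) (τ := τ) (v₁ := v₁) (v₂ := v₂) (W := W) (a := a) (b := b) hG
  have k1 := mul_le_mul_of_nonneg_left (h' a b) hq
  have k2 := mul_le_mul_of_nonneg_right he k0
  have k3 := h a b
  linarith

theorem Cc.mono (h : Cc σ τ v₁ v₂ W ν p e G z) (nn : N0 ν z) (hG : 0 ≤ G z) (he : e ≤ e') :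
    Cc σ τ v₁ v₂ W ν p e' G z := fun a b =>
  (h a b).trans (mul_le_mul_of_nonneg_right he
    (nn.mst (σ := σ) (τ := τ) (v₁ := v₁) (v₂ := v₂) (W := W) (a := a) (b := b) hG))

theorem Cc.add (h : Cc σ τ v₁ v₂ W ν p e G z) (h' : Cc σ τ v₁ v₂ W ν p' e' G z) :
    Cc σ τ v₁ v₂ W ν (p + p') (e + e') G z := fun a b => by
  rw [Q8.dens_add]
  have := add_le_add (h a b) (h' a b)
  linarith

theorem mb_MI0 (nn : N0 ν z) (hc : 0 ≤ c) : Mb σ τ v₁ v₂ W ν (MI ν c) c ν.wI z := fun a b => by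
  refine L8.dens (p := E.mst ν ν.wI) (M := MI ν c) ⟨?_, ?_, ?_, ?_, le_rfl, le_rfl, le_rfl, le_rfl⟩
  · simp [E.mst, MI]
  · refine mul_le_mul_of_nonneg_left ?_ hc
    exact div_le_self nn.En.le (by linarith [nn.m])
  · simp [E.mst, MI]
  · simp [E.mst, MI]

theorem cc_I0 (nn : N0 ν z) (he : 0 ≤ e)
    (h1 : C * (ν.En z * Zq z) ≤ e * ν.En z ^ 2) (h2 : C * (ν.En z * Zp z + Zq z) ≤ e * G z) :
    Cc σ τ v₁ v₂ W ν (cI ν C Zq Zp) e G z := fun a b => by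
  have e0 := nn.En
  have f1 := nn.F₁
  have f2 := nn.F₂
  have hm := nn.m
  have k0 := sqd_nonneg σ τ v₁ v₂ W a b z
  have k1 := Q8.nX_nonneg σ W a z
  have k2 := Q8.nX_nonneg τ W b z
  have k3 := Q8.nY_nonneg σ τ W a b z
  have j1 := mul_le_mul_of_nonneg_right h1 (sq_nonneg (a z + b z))
  have j2 := mul_le_mul_of_nonneg_right h2 (sq_nonneg (a z - b z))
  have j3 : 0 ≤ e * (ν.En z / (1 + ν.m z)) * nY σ τ W a b z := by positivity
  have j4 : 0 ≤ e * (ν.F₁ z * a z ^ 2 + ν.F₂ z * b z ^ 2) := by positivity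
  have j5 : 0 ≤ e * (sqd σ τ v₁ v₂ W a b z + nX σ W a z + nX τ W b z) := by positivity
  unfold Q8.dens E.mst cI
  simp only
  linarith

/-- The tube cost of region I. -/
theorem cc_Tu (nn : N0 ν z) (he : 0 ≤ e) (hG : 0 ≤ G z) {N ρx ρy : LR.V n × LR.V n → ℝ}
    (h1 : C * (N z * (ρx z ^ 2 + ρy z ^ 2) * Z z) ≤ e * ν.F₁ z)
    (h2 : C * (N z * (ρx z ^ 2 + ρy z ^ 2) * Z z) ≤ e * ν.F₂ z) :
    Cc σ τ v₁ v₂ W ν (cTu C N ρx ρy Z) e G z := fun a b => by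
  have e0 := nn.En
  have hm := nn.m
  have k0 := sqd_nonneg σ τ v₁ v₂ W a b z
  have k1 := Q8.nX_nonneg σ W a z
  have k2 := Q8.nX_nonneg τ W b z
  have k3 := Q8.nY_nonneg σ τ W a b z
  have j1 := mul_le_mul_of_nonneg_right h1 (sq_nonneg (a z))
  have j2 := mul_le_mul_of_nonneg_right h2 (sq_nonneg (b z))
  have j3 : 0 ≤ e * (ν.En z / (1 + ν.m z)) * nY σ τ W a b z := by positivity
  have j4 : 0 ≤ e * (ν.En z ^ 2 * (a z + b z) ^ 2 + G z * (a z - b z) ^ 2) := by positivity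
  have j5 : 0 ≤ e * (sqd σ τ v₁ v₂ W a b z + nX σ W a z + nX τ W b z) := by positivity
  unfold Q8.dens E.mst cTu
  simp only
  linarith

/-- The tube cost of region I against the tube letters. -/
theorem tu_TL {cN CN q : ℝ} {N ρx ρy : LR.V n × LR.V n → ℝ} (hc : 0 ≤ cN) (hN : 1 ≤ N z)
    (h : ρx z ^ 2 + ρy z ^ 2 ≠ 0 → q * (CN * Z z) ≤ cN * N z) (a b : LR.V n × LR.V n → ℝ) :
    q * (cTu CN N ρx ρy Z).dens σ τ v₁ v₂ W a b z ≤ (TL cN N ρx ρy).dens σ τ v₁ v₂ W a b z := by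
  have k1 := Q8.nX_nonneg σ W a z
  have k2 := Q8.nX_nonneg τ W b z
  have hN0 : 0 < N z := by linarith
  have h0 : q * (CN * Z z) * (N z * (ρx z ^ 2 + ρy z ^ 2)) ≤
      cN * N z * (N z * (ρx z ^ 2 + ρy z ^ 2)) := by
    by_cases hr : ρx z ^ 2 + ρy z ^ 2 = 0
    · rw [hr]; simp
    · exact mul_le_mul_of_nonneg_right (h hr) (by positivity)
  have i1 : cN * N z * (N z * (ρx z ^ 2 + ρy z ^ 2)) ≤
      cN * (N z ^ 2 * ρx z ^ 2 + N z ^ 3 * ρy z ^ 2) := by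
    have : 0 ≤ cN * (N z ^ 2 * ρy z ^ 2 * (N z - 1)) := by
      have : 0 ≤ N z - 1 := by linarith
      positivity
    linarith
  have i2 : cN * N z * (N z * (ρx z ^ 2 + ρy z ^ 2)) ≤
      cN * (N z ^ 3 * ρx z ^ 2 + N z ^ 2 * ρy z ^ 2) := by
    have : 0 ≤ cN * (N z ^ 2 * ρx z ^ 2 * (N z - 1)) := by
      have : 0 ≤ N z - 1 := by linarith
      positivity
    linarith
  have j1 := mul_le_mul_of_nonneg_right (h0.trans i1) (sq_nonneg (a z))
  have j2 := mul_le_mul_of_nonneg_right (h0.trans i2) (sq_nonneg (b z))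
  have j3 : 0 ≤ cN * (N z * (ρx z ^ 2 + ρy z ^ 2)) * nX σ W a z := by positivity
  have j4 : 0 ≤ cN * (N z * (ρx z ^ 2 + ρy z ^ 2)) * nX τ W b z := by positivity
  unfold Q8.dens cTu TL
  simp only
  linarith

theorem TL_nn {cN : ℝ} {N ρx ρy : LR.V n × LR.V n → ℝ} (hc : 0 ≤ cN) (hN : 0 ≤ N z)
    (a b : LR.V n × LR.V n → ℝ) : 0 ≤ (TL cN N ρx ρy).dens σ τ v₁ v₂ W a b z := by
  have k0 := sqd_nonneg σ τ v₁ v₂ W a b z
  have k1 := Q8.nX_nonneg σ W a z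
  have k2 := Q8.nX_nonneg τ W b z
  have k3 := Q8.nY_nonneg σ τ W a b z
  unfold Q8.dens TL
  simp only
  positivity

theorem cc_B0 (nn : N0 ν z) (h : C * Z z ≤ e) (hq : C * Zq z ≤ e)
    (hw : C * Z z * ν.wB z ≤ e * G z) :
    Cc σ τ v₁ v₂ W ν (cB ν C Z Zq) e G z := fun a b => by
  have e0 := nn.En
  have f1 := nn.F₁
  have f2 := nn.F₂
  have hm := nn.m
  have k0 := sqd_nonneg σ τ v₁ v₂ W a b z
  have k1 := Q8.nX_nonneg σ W a z
  have k2 := Q8.nX_nonneg τ W b z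
  have k3 := Q8.nY_nonneg σ τ W a b z
  have hg : 0 ≤ ν.En z / (1 + ν.m z) := by positivity
  have j0 := mul_le_mul_of_nonneg_right hq k0
  have j1 := mul_le_mul_of_nonneg_right h (mul_nonneg hg k3)
  have j2 := mul_le_mul_of_nonneg_right h k1
  have j3 := mul_le_mul_of_nonneg_right h k2
  have j4 := mul_le_mul_of_nonneg_right h (mul_nonneg f1 (sq_nonneg (a z)))
  have j5 := mul_le_mul_of_nonneg_right h (mul_nonneg f2 (sq_nonneg (b z)))
  have j6 := mul_le_mul_of_nonneg_right h (mul_nonneg (sq_nonneg (ν.En z))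
    (sq_nonneg (a z + b z)))
  have j7 := mul_le_mul_of_nonneg_right hw (sq_nonneg (a z - b z))
  have e1 : (cB ν C Z Zq).dens σ τ v₁ v₂ W a b z = C * Z z * (uB ν).dens σ τ v₁ v₂ W a b z +
      C * Zq z * sqd σ τ v₁ v₂ W a b z := by
    unfold cB
    rw [Q8.dens_add, Q8.dens_sm]
    unfold Q8.dens
    simp only [Pi.zero_apply]
    ring
  rw [e1]
  unfold Q8.dens E.mst uB
  simp only
  linarith

/-! ## Numbers -/

/-- Region I: the weight of `(a - b)²` is at least `E N / 7`. -/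
theorem wI_ge {N En m : ℝ} (hN : 1 ≤ N) (hE : N ≤ En) (hm0 : 0 ≤ m) (hm : m ≤ 5 * N) :
    En * N / 7 ≤ N ^ 2 * En ^ 2 / (En * (1 + m) + N ^ 2) := by
  have hE0 : 0 < En := by linarith
  have hN0 : 0 < N := by linarith
  rw [div_le_div_iff₀ (by norm_num) (by positivity)]
  have h1 : En * (1 + m) + N ^ 2 ≤ 7 * (En * N) := by
    have h2 : En * (1 + m) ≤ En * (6 * N) := mul_le_mul_of_nonneg_left (by linarith) hE0.le
    have h3 : N ^ 2 ≤ En * N := by nlinarith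
    linarith
  have h4 := mul_le_mul_of_nonneg_left h1 (by positivity : 0 ≤ En * N)
  linarith

/-- Core against region I. -/
theorem wB_wI {N En m : ℝ} (hN : 1 ≤ N) (hE : N ^ 2 ≤ En) (hm0 : 0 ≤ m) (hm : m ≤ 5 * N) :
    En * (N + 1 + m) ^ 2 / (1 + m) ≤ 98 * (N ^ 2 * En ^ 2 / (En * (1 + m) + N ^ 2)) := by
  have hE0 : 0 < En := by nlinarith
  have hN0 : 0 < N := by linarith
  have h1 : (N + 1 + m) ^ 2 ≤ 49 * N ^ 2 := by
    have : N + 1 + m ≤ 7 * N := by linarith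
    have := pow_le_pow_left₀ (by linarith : 0 ≤ N + 1 + m) this 2
    linarith
  have h2 : En * (1 + m) + N ^ 2 ≤ 2 * (En * (1 + m)) := by nlinarith
  have h3 : En * (N + 1 + m) ^ 2 / (1 + m) ≤ En * (49 * N ^ 2) / (1 + m) := by
    gcongr
  have h4 : N ^ 2 * En ^ 2 / (2 * (En * (1 + m))) ≤ N ^ 2 * En ^ 2 / (En * (1 + m) + N ^ 2) := by
    gcongr
  have h5 : En * (49 * N ^ 2) / (1 + m) = 98 * (N ^ 2 * En ^ 2 / (2 * (En * (1 + m)))) := by
    field_simp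
    ring
  linarith

/-- Core against zone II: `G = k f` with `k ≥ CK (1 + N² / m²)`, `f ≥ En m / A`. -/
theorem wB_wk {N En m k f CK A : ℝ} (hN : 0 ≤ N) (hE : 0 < En) (hm : 1 ≤ m) (hA : 0 < A)
    (hCK : 0 < CK) (hk : CK * (1 + N ^ 2 / m ^ 2) ≤ k) (hf : En * m / A ≤ f) :
    En * (N + 1 + m) ^ 2 / (1 + m) ≤ 8 * A / CK * (k * f) := by
  have hm0 : 0 < m := by linarith
  have h1 : CK * (1 + N ^ 2 / m ^ 2) * (En * m / A) ≤ k * f :=
    mul_le_mul hk hf (by positivity) (le_trans (by positivity) hk)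
  have h2 := mul_le_mul_of_nonneg_left h1 (by positivity : 0 ≤ 8 * A / CK)
  have e : 8 * A / CK * (CK * (1 + N ^ 2 / m ^ 2) * (En * m / A)) =
      En * (8 * (m ^ 2 + N ^ 2)) / m := by
    field_simp
  rw [e] at h2
  refine le_trans ?_ h2
  have h3 : (N + 1 + m) ^ 2 ≤ 8 * (m ^ 2 + N ^ 2) := by
    have : N + 1 + m ≤ N + 2 * m := by linarith
    have := pow_le_pow_left₀ (by linarith : 0 ≤ N + 1 + m) this 2
    nlinarith [sq_nonneg (N - 2 * m)]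
  calc En * (N + 1 + m) ^ 2 / (1 + m) ≤ En * (N + 1 + m) ^ 2 / m := by
        gcongr
        linarith
    _ ≤ En * (8 * (m ^ 2 + N ^ 2)) / m := by gcongr

/-- Zone II: `G ≥ E N`. -/
theorem wk_ge {N En m k f CK A : ℝ} (hN : 0 ≤ N) (hE : 0 < En) (hm : 0 < m) (hA : 0 < A)
    (hCK : A ≤ CK) (hk : CK * (1 + N ^ 2 / m ^ 2) ≤ k) (hf : En * m / A ≤ f) :
    En * N ≤ k * f := by
  have hC0 : 0 < CK := by linarith
  have h1 : CK * (1 + N ^ 2 / m ^ 2) * (En * m / A) ≤ k * f :=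
    mul_le_mul hk hf (by positivity) (le_trans (by positivity) hk)
  refine le_trans ?_ h1
  have h2 : A * (1 + N ^ 2 / m ^ 2) * (En * m / A) ≤ CK * (1 + N ^ 2 / m ^ 2) * (En * m / A) := by
    gcongr
  refine le_trans ?_ h2
  have e : A * (1 + N ^ 2 / m ^ 2) * (En * m / A) = En * (m ^ 2 + N ^ 2) / m := by
    field_simp
  rw [e, le_div_iff₀ hm]
  have : N * m ≤ m ^ 2 + N ^ 2 := by nlinarith [sq_nonneg (N - m)]
  calc En * N * m = En * (N * m) := by ring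
    _ ≤ En * (m ^ 2 + N ^ 2) := mul_le_mul_of_nonneg_left this hE.le

/-- Core: `wB ≥ E N`. -/
theorem wB_ge {N En m : ℝ} (hN : 0 ≤ N) (hE : 0 < En) (hm : 0 ≤ m) :
    En * N ≤ En * (N + 1 + m) ^ 2 / (1 + m) := by
  rw [le_div_iff₀ (by linarith)]
  have : N * (1 + m) ≤ (N + 1 + m) ^ 2 := by nlinarith
  calc En * N * (1 + m) = En * (N * (1 + m)) := by ring
    _ ≤ En * (N + 1 + m) ^ 2 := mul_le_mul_of_nonneg_left this hE.le

end Vale.Agent.P088.R2.H972.E
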