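import Vale.Agent.P088.R2.H972.EP.Sz
import Vale.Agent.P088.R2.H281.EP.Bas
import Vale.Agent.P088.R2.H558.G.TopL

/-!
# P088, stage 3: payments near | near, the payers and the costs of zone II
-/

open Set Filter
open scoped ContDiff Topology

noncomputable section

namespace Vale.Agent.P088.R2.H972.EP

open Vale.Agent.P088.LR Vale.Agent.P088.HY
open Vale.Agent.P088.R2.H31.EP Vale.Agent.P088.R2.H867.EP
open Vale.Agent.P088.R2.H281.A Vale.Agent.P088.R2.H238.C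
open Vale.Agent.P088.R2.H464.Cu (rq)
open Vale.Agent.P088.R2.H932.EP (NrC evNr)
open Vale.Agent.P088.R2.H867.Z (Zc Zc_nn sq1 sqp)
open Vale.Agent.P088.R2.H338.TC (Na rx ry)
open Vale.Agent.P088.R2.H972.E (N0 NN Mb Cc mst)
open Vale.Agent.P088.R2.H165
open Vale.Agent.P088.R2.H455.E (Lc Mz coz nu cTu Bas)
open Vale.Agent.P088.R2.H551.E (fx fy)

variable {n : ℕ} {q : Cst} {d : Pk n} {z : VV n}

/-- The leaves of zone II. -/
def N2 (k : Zo) : Prop := k = .z2a ∨ k = .z2b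

theorem N2.nz {k : Zo} (h : N2 k) : Nz k := by
  unfold N2 at h
  unfold Nz
  tauto

/-- **Row KE**: the convexity weight of zone II is large against `1 + N² / m²` and at most `m`. -/
def RowKE (kz : Cst → Pk n → VV n → ℝ) : Prop := ∀ C : Cst → ℝ, NB_CB C → EvC fun q =>
  ∀ d : Pk n, PkOk q d → ∀ k, N2 k → ∀ z, d.ch q k z ≠ 0 →
    C q * (1 + d.N q z ^ 2 / d.m q z ^ 2) ≤ kz q d z ∧ kz q d z ≤ d.m q z

/-- **Row FE**: in zone II the gradients are at least `c E r`. -/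
def RowFE (n : ℕ) : Prop := ∃ A : Cst → ℝ, NB_CB A ∧ EvC fun q => 0 < A q ∧
  ∀ d : Pk n, PkOk q d → ∀ k, N2 k → ∀ z, d.ch q k z ≠ 0 →
    d.E q z * d.m q z / A q ≤ d.sx.F (d.W q) z ∧ d.E q z * d.m q z / A q ≤ d.sy.F (d.W q) z

theorem fx_F {s : MF n} (h : H551.E.El s) (W : VV n → ℝ) (z : VV n) : 0 ≤ (fx s).F W z := by
  have h1 := (h z.1 fun i => (fx s).D i W z).1
  have h2 : 0 ≤ ∑ i, (fx s).D i W z ^ 2 := Finset.sum_nonneg fun _ _ => sq_nonneg _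
  have h3 : (fx s).F W z = ∑ i, ∑ j, s z.1 i j * (fx s).D i W z * (fx s).D j W z := rfl
  rw [h3]
  linarith

theorem fy_F {s : MF n} (h : H551.E.El s) (W : VV n → ℝ) (z : VV n) : 0 ≤ (fy s).F W z := by
  have h1 := (h z.2 fun i => (fy s).D i W z).1
  have h2 : 0 ≤ ∑ i, (fy s).D i W z ^ 2 := Finset.sum_nonneg fun _ _ => sq_nonneg _
  have h3 : (fy s).F W z = ∑ i, ∑ j, s z.2 i j * (fy s).D i W z * (fy s).D j W z := rfl
  rw [h3]
  linarith

theorem n0 {kz : Cst → Pk n → VV n → ℝ} (B : Bas q d) (hr : 0 ≤ rq (gi d.s₁) z) :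
    N0 (nu kz q d) z where
  En := Real.exp_pos _
  m := mul_nonneg (Real.exp_pos _).le (by
    show 0 ≤ 2 * rq (gi d.s₁) z
    linarith)
  F₁ := fx_F B.e₁ _ z
  F₂ := fy_F B.e₂ _ z

theorem nn {kz : Cst → Pk n → VV n → ℝ} (B : Bas q d) (hr : 0 ≤ rq (gi d.s₁) z)
    (hm : 0 < d.m q z) (hk : 0 ≤ kz q d z) : NN (nu kz q d) z where
  En := Real.exp_pos _
  m := hm.le
  r := by
    have h1 : d.m q z = d.E q z * d.r2 z := rfl
    have h2 : 0 < d.E q z := Real.exp_pos _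
    show 0 < d.r2 z
    by_contra hc
    have := mul_nonpos_of_nonneg_of_nonpos h2.le (not_lt.1 hc)
    linarith
  mr := rfl
  k := hk
  F₁ := (n0 (kz := kz) B hr).F₁
  F₂ := (n0 (kz := kz) B hr).F₂

/-- The constant of the payers. -/
def gj (L : Lc n) (q : Cst) : ℝ := min (L.cI q) (min (1 / 16) (L.cB q))

theorem gj_pos {L : Lc n} (hL : L.Ok) (q : Cst) : 0 < gj L q :=
  lt_min (hL.cI.1 q) (lt_min (by norm_num) (hL.cB.1 q))

theorem gj_nb {L : Lc n} (hL : L.Ok) : NB_ηc (gj L) := fun q => by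
  unfold gj
  rw [nb_c₀_ηc hL.cI.2 q, hL.cB.2 q]

theorem Mb.le {M : H551.E.Q8 (VV n)} {c c' : ℝ} {G W : VV n → ℝ} {ν : Tab.Nu (VV n)}
    {σ τ : H961.GW.Sl (VV n) (Fin n)} {v₁ v₂ : VV n → ℝ}
    (h : Mb σ τ v₁ v₂ W ν M c G z) (nn : N0 ν z) (hG : 0 ≤ G z) (hc : c' ≤ c) :
    Mb σ τ v₁ v₂ W ν M c' G z := fun a b =>
  (mul_le_mul_of_nonneg_right hc (nn.mst hG)).trans (h a b)

/-- The basic facts. -/
structure Bf (q : Cst) (d : Pk n) : Prop where
  bas : Bas q d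
  rq0 : ∀ z, 0 ≤ rq (gi d.s₁) z
  met : ∀ z, |2 * rq (gi d.s₁) z - qq z| ≤ 1 / 2 * qq z
  num : ∀ k, Nz k → ∀ z, d.ch q k z ≠ 0 → NkN q d k z

theorem evBf (n : ℕ) : EvC fun q => ∀ d : Pk n, PkOk q d → Bf q d := by
  refine (((H281.EP.rowBas n).and (EvC.litSm n)).and ((EvC.metric n (fun _ => 1 / 2)
    fun _ => rfl).and (evNkN n))).mono ?_
  rintro q ⟨⟨h1, h2⟩, h3, h4⟩ d h
  exact ⟨h1 d h, (h2 d h).rq0, (h3 (by norm_num) d h).2.2.2.2, fun k hk z hz => h4 d h k hk z hz⟩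

/-- **The payers.** -/
theorem payers {L : Lc n} (hL : L.Ok) (hK : RowKE L.kz) (hF : RowFE n) :
    EvC fun q => ∀ d : Pk n, PkOk q d → ∀ j, Nz j → ∀ z, d.ch q j z ≠ 0 →
      N0 (nu L.kz q d) z ∧ ∃ G : VV n → ℝ, d.E q z * d.N q z / 7 ≤ G z ∧
        Mb (fx d.s₁) (fy d.s₂) (fun _ => 0) (fun _ => 0) (d.W q) (nu L.kz q d) (Mz L q d j)
          (gj L q) G z := by
  obtain ⟨A, hA, hF⟩ := hF
  have hcK := EvC.at_cK (fun _ t => t ≤ 1) fun _ => sml_le one_pos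
  have hKE := hK (fun q => max 1 (A q)) fun q => by simp only [hA q]
  refine (((evBf n).and (hF.and hKE)).and ((EvC.thr.and EvC.pos).and hcK)).mono ?_
  rintro q ⟨⟨hB, ⟨hA0, hF⟩, hK⟩, ⟨T, hp⟩, hcK⟩ d h j hj z hz
  have B := hB d h
  have hn0 := n0 (kz := L.kz) B.bas (B.rq0 z)
  have N := B.num j hj z hz
  have hE : 0 < d.E q z := Real.exp_pos _
  have hM0 := T.M1
  have hNM : q.M₀ ≤ d.N q z := N.M0
  have hN0 : 1 ≤ d.N q z := hM0.trans hNM
  have hNE : d.N q z ≤ d.E q z := N.NE.trans (by nlinarith [T.aC1])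
  have hm0 : 0 ≤ d.m q z := hn0.m
  have hEN : 0 ≤ d.E q z * d.N q z := by positivity
  refine ⟨hn0, ?_⟩
  have z2 : N2 j → ∃ G : VV n → ℝ, d.E q z * d.N q z / 7 ≤ G z ∧
      Mb (fx d.s₁) (fy d.s₂) (fun _ => 0) (fun _ => 0) (d.W q) (nu L.kz q d) (Tab.MII (nu L.kz q d))
        (gj L q) G z := by
    intro h2
    obtain ⟨k1, k2⟩ := hK d h j h2 z hz
    obtain ⟨f1, f2⟩ := hF d h j h2 z hz
    have hx : (0 : ℝ) ≤ d.N q z ^ 2 / d.m q z ^ 2 := by positivity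
    have hC1 : 1 ≤ max 1 (A q) := le_max_left _ _
    have hk1 : 1 ≤ L.kz q d z := by
      refine le_trans ?_ k1
      nlinarith
    have hm1 : 0 < d.m q z := by linarith
    have hnn := nn (kz := L.kz) B.bas (B.rq0 z) hm1 (by linarith)
    have hG := H972.E.wk_ge (N := d.N q z) (En := d.E q z) (m := d.m q z) (k := L.kz q d z)
      (f := d.E q z * d.m q z / A q) (by linarith) hE hm1 hA0 (le_max_right 1 (A q)) k1 le_rfl
    refine ⟨fun z => L.kz q d z * (d.E q z * d.m q z / A q), by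
      show d.E q z * d.N q z / 7 ≤ L.kz q d z * (d.E q z * d.m q z / A q)
      linarith, ?_⟩
    have h3 := H972.E.mb_MII (σ := fx d.s₁) (τ := fy d.s₂) (v₁ := fun _ => 0) (v₂ := fun _ => 0)
      (W := d.W q) (f := fun z => d.E q z * d.m q z / A q) hnn hm1 hk1 (by positivity) f1 f2
    exact Mb.le h3 hn0 (by
      show 0 ≤ L.kz q d z * (d.E q z * d.m q z / A q)
      linarith) ((min_le_right _ _).trans (min_le_left _ _))
  rcases hj with rfl | rfl | rfl | rfl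
  · -- region I
    have nu := (N.I (Or.inl rfl)).1
    have hmK := N.ti rfl
    have hKf : 0 < d.Kf q z := K_pos h _
    have hm5 : d.m q z ≤ 5 * d.N q z := by
      have h1 : d.Kf q z ≤ 41 / 20 * d.N q z := nu.Kn
      have h2 : q.cK * d.Kf q z ≤ 1 * d.Kf q z := mul_le_mul_of_nonneg_right hcK hKf.le
      linarith
    have hG : d.E q z * d.N q z / 7 ≤ (H455.E.nu L.kz q d).wI z :=
      H972.E.wI_ge hN0 hNE hm0 hm5
    refine ⟨(H455.E.nu L.kz q d).wI, hG, fun a b => ?_⟩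
    have h1 := (Mb.le (H972.E.mb_MI0 (σ := fx d.s₁) (τ := fy d.s₂) (v₁ := fun _ => 0)
      (v₂ := fun _ => 0) (W := d.W q) hn0 (hL.cI.1 q).le) hn0 (by linarith)
      (min_le_left (L.cI q) (min (1 / 16) (L.cB q)))) a b
    have h2 := H972.E.TL_nn (σ := fx d.s₁) (τ := fy d.s₂) (v₁ := fun _ => 0)
      (v₂ := fun _ => 0) (W := d.W q) (z := z) (N := Na d) (ρx := rx q d) (ρy := ry q d)
      (hL.cN.1 q).le (by
        have := N_ge h (d.u0 z)
        show 0 ≤ deriv d.Φ (d.u0 z)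
        linarith) a b
    have e : (Mz L q d .zI).dens (fx d.s₁) (fy d.s₂) (fun _ => 0) (fun _ => 0) (d.W q) a b z =
        (Tab.MI (H455.E.nu L.kz q d) (L.cI q)).dens (fx d.s₁) (fy d.s₂) (fun _ => 0) (fun _ => 0)
          (d.W q) a b z + (H338.C.TL (L.cN q) (Na d) (rx q d) (ry q d)).dens (fx d.s₁) (fy d.s₂)
          (fun _ => 0) (fun _ => 0) (d.W q) a b z := H551.E.Q8.dens_add ..
    rw [e]
    unfold gj
    linarith
  · exact z2 (Or.inl rfl)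
  · -- the core
    have hG : d.E q z * d.N q z ≤ (H455.E.nu L.kz q d).wB z :=
      H972.E.wB_ge (by linarith) hE hm0
    refine ⟨(H455.E.nu L.kz q d).wB, by linarith, ?_⟩
    exact Mb.le H972.E.mb_MB hn0 (by linarith) ((min_le_right _ _).trans (min_le_right _ _))
  · exact z2 (Or.inr rfl)

/-- The constant of `k` for the costs of zone II. -/
def CK2 (L : Lc n) (q : Cst) : ℝ :=
  1 + 2 * L.C2 q * (80 * n * L.K2 q * a0 n q ^ 2) * 34 / gj L q

theorem CK2_nb {L : Lc n} (hL : L.Ok) : NB_CB (CK2 L) := nb_ηc_CB fun q => by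
  unfold CK2
  rw [hL.C2.2 q, hL.K2.2 q, a0_nb n q, gj_nb hL q]

/-- **The costs of zone II.** -/
theorem cost_II {L : Lc n} (hL : L.Ok) (hK : RowKE L.kz) :
    EvC fun q => ∀ d : Pk n, PkOk q d → ∀ k, N2 k → ∀ z, d.ch q k z ≠ 0 → ∀ G : VV n → ℝ,
      0 ≤ G z → ∀ e : Cst → ℝ,
        Cc (fx d.s₁) (fy d.s₂) (fun _ => 0) (fun _ => 0) (d.W q) (nu L.kz q d) (coz L e q d k)
          (gj L q / 34) G z := by
  have hη := EvC.at_ηc (fun _ t => t ≤ 1) fun _ => sml_le one_pos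
  refine (((evBf n).and (hK _ (CK2_nb hL))).and ((EvC.thr.and (evNr n)).and hη)).mono ?_
  rintro q ⟨⟨hB, hK⟩, ⟨T, hq⟩, hη⟩ d h k hk z hz G hG e
  have B := hB d h
  have hn0 := n0 (kz := L.kz) B.bas (B.rq0 z)
  have N := B.num k hk.nz z hz
  obtain ⟨k1, k2⟩ := hK d h k hk z hz
  have hg := gj_pos hL q
  have hC2 := hL.C2.1 q
  have hK2 := hL.K2.1 q
  have hE : 0 < d.E q z := Real.exp_pos _
  have hM0 := T.M1
  have hNM : q.M₀ ≤ d.N q z := N.M0
  have hx : (0 : ℝ) ≤ d.N q z ^ 2 / d.m q z ^ 2 := by positivity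
  have hP : 0 ≤ 2 * L.C2 q * (80 * n * L.K2 q * a0 n q ^ 2) * 34 / gj L q := by positivity
  have hC1 : 1 ≤ CK2 L q := by unfold CK2; linarith
  have hk1 : 1 ≤ L.kz q d z := by
    refine le_trans ?_ k1
    nlinarith
  have hm1 : 1 ≤ d.m q z := by linarith
  have hnn := nn (kz := L.kz) B.bas (B.rq0 z) (by linarith) (by linarith)
  have hZ := Zc_small hq hη h hk.nz.near N.r hK2.le (by linarith : 0 < CK2 L q) (by linarith)
    (by linarith) k2 k1
  have hZ0 : 0 ≤ Zc (L.K2 q) 1 (rq (gi d.s₁)) (d.E q) (d.N q) (L.kz q d) (d.ch q k) z :=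
    Zc_nn hK2.le zero_le_one (B.rq0 z) (by linarith)
  have hZ' : 2 * (L.C2 q * Zc (L.K2 q) 1 (rq (gi d.s₁)) (d.E q) (d.N q) (L.kz q d) (d.ch q k) z) ≤
      gj L q / 34 := by
    have h1 := mul_le_mul_of_nonneg_left hZ (by positivity : 0 ≤ 2 * L.C2 q)
    have h2 : 2 * L.C2 q * (80 * n * L.K2 q * a0 n q ^ 2 / CK2 L q) ≤ gj L q / 34 := by
      rw [← mul_div_assoc, div_le_div_iff₀ (by linarith) (by norm_num)]
      have h3 : gj L q * CK2 L q = gj L q + 2 * L.C2 q * (80 * n * L.K2 q * a0 n q ^ 2) * 34 := by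
        unfold CK2
        field_simp
      rw [h3]
      linarith
    linarith
  have key : Cc (fx d.s₁) (fy d.s₂) (fun _ => 0) (fun _ => 0) (d.W q) (nu L.kz q d)
      (Tab.cII (nu L.kz q d) (L.C2 q)
        (Zc (L.K2 q) 1 (rq (gi d.s₁)) (d.E q) (d.N q) (L.kz q d) (d.ch q k)))
      (gj L q / 34) G z :=
    H972.E.cc_II hnn (by positivity) hG (mul_nonneg hC2.le hZ0) (Or.inr ⟨hm1, hZ'⟩)
  rcases hk with rfl | rfl
  · exact key
  · exact key

end Vale.Agent.P088.R2.H972.EP
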