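import Vale.Agent.P088.R2.H972.EP.Ms
import Vale.Agent.P088.R2.H972.EP.Zs

/-!
# P088, stage 3: the sizes of the costs of the leaf `zI`
-/

open Set Filter
open scoped ContDiff Topology

noncomputable section

namespace Vale.Agent.P088.R2.H972.EP

open Vale.Agent.P088.LR Vale.Agent.P088.HY
open Vale.Agent.P088.R2.H31.EP Vale.Agent.P088.R2.H867.EP
open Vale.Agent.P088.R2.H281.A Vale.Agent.P088.R2.H238.C
open Vale.Agent.P088.R2.H464.Cu (rq)
open Vale.Agent.P088.R2.H932.EP (JB ep wt wt_nonneg NrC cN cN_nb' αc evNr)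
open Vale.Agent.P088.R2.H205.CP (gq gp dq)
open Vale.Agent.P088.R2.H867.Z (Zc sq1 sqp sq1_nn sqp_nn dx_ep dy_ep)
open Vale.Agent.P088.R2.H338.TC (Na rx ry)

variable {n : ℕ} {q : Cst} {d : Pk n} {z : VV n}

theorem sqp_eq (χ : VV n → ℝ) (z : VV n) : sqp χ z = gp χ z := by
  unfold sqp gp H205.CP.dp
  rfl

theorem sq1_eq (χ : VV n → ℝ) (z : VV n) : sq1 χ z = 1 / 2 * gp χ z + 2 * gq χ z := by
  unfold sq1 gp gq
  rw [Finset.mul_sum, Finset.mul_sum, ← Finset.sum_add_distrib]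
  refine Finset.sum_congr rfl fun i _ => ?_
  unfold H205.CP.dp dq
  ring

/-- Functions of the constants before `ηc` are functions of the constants before `CB`. -/
theorem nb_ηc_CB {f : Cst → ℝ} (h : NB_ηc f) : NB_CB f := fun q => by
  rw [← h q.b_CB, ← h q]
  rfl

theorem nb_CB_M₀ {f : Cst → ℝ} (h : NB_CB f) : NB_M₀ f := fun q => by
  rw [← h q.b_M₀, ← h q]
  rfl

theorem nb_ηc_M₀ {f : Cst → ℝ} (h : NB_ηc f) : NB_M₀ f := fun q => by
  rw [← h q.b_M₀, ← h q]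
  rfl

theorem nb_c'_M₀ {f : Cst → ℝ} (h : NB_c' f) : NB_M₀ f := fun q => by
  rw [← h q.b_M₀, ← h q]
  rfl

theorem nb_c₀_ηc {f : Cst → ℝ} (h : NB_c₀ f) : NB_ηc f := fun q => by
  rw [← h q.b_ηc, ← h q]
  rfl

/-- `|D χ|²` for `r ≥ c₀ / 5`. -/
def S1 (n : ℕ) (q : Cst) : ℝ := n * a0 n q ^ 2 * (1 / 2 + 2 * (64 / q.c₀ ^ 2))

theorem S1_nb (n : ℕ) : NB_ηc (S1 n) := fun q => by
  unfold S1
  rw [a0_nb n q]
  rfl

theorem sq1_r (hq : NrC n q) (hη : q.ηc ≤ 1) (h : PkOk q d) {k : Zo} (hk : Near k)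
    (hc0 : 0 < q.c₀) (hr : q.c₀ ^ 2 / 32 ≤ d.r2 z) : sq1 (d.ch q k) z ≤ S1 n q := by
  have h0 := a0_nn hq
  have e : d.r2 z = 2 * rq (gi d.s₁) z := rfl
  have hc2 : 0 < q.c₀ ^ 2 := by positivity
  have hρ : q.c₀ ^ 2 / 64 ≤ rq (gi d.s₁) z := by linarith
  have hρ0 : 0 < rq (gi d.s₁) z := by linarith
  have h1 := gp_le hq hη h hk z
  have h2 : gq (d.ch q k) z ≤ n * (a0 n q ^ 2 * (64 / q.c₀ ^ 2)) := by
    refine sum_sq_le fun i => ?_
    rw [dq_ep]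
    have h3 := ch_d hq hη h hk hρ0 (Sum.inr i)
    have h5 : wt (rq (gi d.s₁) z) (Sum.inr i) = (√(rq (gi d.s₁) z))⁻¹ := rfl
    have h6 := pow_le_pow_left₀ (abs_nonneg _) h3 2
    rw [h5, mul_pow, inv_pow, Real.sq_sqrt hρ0.le, sq_abs] at h6
    refine h6.trans (mul_le_mul_of_nonneg_left ?_ (sq_nonneg _))
    rw [inv_eq_one_div, div_le_div_iff₀ hρ0 hc2]
    linarith
  rw [sq1_eq]
  unfold S1
  nlinarith

/-- `|D χ|²` in region I. -/
def S2 (n : ℕ) (q : Cst) : ℝ := n * a0 n q ^ 2 * (5 / 2 + 4 / q.c₀ ^ 2 + 4 / q.cK)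

theorem S2_nb (n : ℕ) : NB_ηc (S2 n) := fun q => by
  unfold S2
  rw [a0_nb n q]
  rfl

theorem S2_nn (hq : NrC n q) (hc0 : 0 < q.c₀) (hcK : 0 < q.cK) : 0 ≤ S2 n q := by
  have := a0_nn hq
  unfold S2
  positivity

theorem sq1_I (hq : NrC n q) (hη : q.ηc ≤ 1) (h : PkOk q d) (hc0 : 0 < q.c₀) (hcK : 0 < q.cK) :
    sq1 (d.ch q .zI) z ≤ S2 n q * (1 + d.E q z / d.Kf q z) ∧ sqp (d.ch q .zI) z ≤ S2 n q := by
  have h0 := a0_nn hq
  have hk : Near .zI := by unfold Near; tauto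
  have hE : 0 < d.E q z := Real.exp_pos _
  have hK : 0 < d.Kf q z := K_pos h _
  have h1 := gp_le hq hη h hk z
  have h2 := gq_le hq hη h hc0 hcK z
  have hn : (0 : ℝ) ≤ n := Nat.cast_nonneg n
  have p : 0 ≤ n * a0 n q ^ 2 := by positivity
  constructor
  · rw [sq1_eq]
    have e1 : 2 * d.E q z / (q.cK * d.Kf q z) = 2 / q.cK * (d.E q z / d.Kf q z) := by
      field_simp
    rw [e1] at h2
    have hx : 0 ≤ d.E q z / d.Kf q z := by positivity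
    have e2 : S2 n q * (1 + d.E q z / d.Kf q z) = n * a0 n q ^ 2 * (5 / 2 + 4 / q.c₀ ^ 2 +
        4 / q.cK * (d.E q z / d.Kf q z)) + n * a0 n q ^ 2 * ((5 / 2 + 4 / q.c₀ ^ 2) *
        (d.E q z / d.Kf q z) + 4 / q.cK) := by unfold S2; ring
    have e3 : 0 ≤ n * a0 n q ^ 2 * ((5 / 2 + 4 / q.c₀ ^ 2) *
        (d.E q z / d.Kf q z) + 4 / q.cK) := by positivity
    have e4 : (n : ℝ) * (a0 n q ^ 2 * (1 + 2 / q.c₀ ^ 2 + 2 / q.cK * (d.E q z / d.Kf q z))) =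
        n * a0 n q ^ 2 * (1 + 2 / q.c₀ ^ 2 + 2 / q.cK * (d.E q z / d.Kf q z)) := by ring
    have e5 : n * a0 n q ^ 2 * (5 / 2 + 4 / q.c₀ ^ 2 + 4 / q.cK * (d.E q z / d.Kf q z)) =
        1 / 2 * (n * a0 n q ^ 2) +
        2 * (n * (a0 n q ^ 2 * (1 + 2 / q.c₀ ^ 2 + 2 / q.cK * (d.E q z / d.Kf q z)))) := by ring
    rw [e2, e5]
    linarith
  · rw [sqp_eq]
    refine h1.trans ?_
    unfold S2
    refine le_mul_of_one_le_right p ?_
    have : 0 ≤ 4 / q.c₀ ^ 2 + 4 / q.cK := by positivity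
    linarith

/-- **The costs of `zI` are small.** -/
theorem row_I (n : ℕ) {B : Cst → ℝ} (hB : NB_M₀ B) : EvC fun q => 0 ≤ B q → ∀ d : Pk n, PkOk q d →
    ∀ z, d.ch q .zI z ≠ 0 → B q * (d.E q z * sq1 (d.ch q .zI) z) ≤ d.E q z ^ 2 ∧
      B q * (d.E q z * sqp (d.ch q .zI) z + sq1 (d.ch q .zI) z) ≤ d.E q z * d.N q z := by
  have hM : EvC fun q => 3 * (B q * S2 n q) ≤ q.M₀ ∧ 3 * (B q * S2 n q) ≤ q.M₀ ^ (9 / 10 : ℝ) := by
    have h1 := EvC.at_M₀ (fun q t => 3 * (B q * S2 n q) ≤ t ∧ 3 * (B q * S2 n q) ≤ t ^ (9 / 10 : ℝ))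
      fun q => ((eventually_ge_atTop _).and
        ((tendsto_rpow_atTop (by norm_num : (0 : ℝ) < 9 / 10)).eventually_ge_atTop _))
    refine h1.mono fun q hq => ?_
    rwa [hB q, nb_ηc_M₀ (S2_nb n) q] at hq
  have hη := EvC.at_ηc (fun _ t => t ≤ 1) fun _ => sml_le one_pos
  refine ((((evNkN n).and hM).and ((evNr n).and hη)).and (EvC.thr.and EvC.pos)).mono ?_
  rintro q ⟨⟨⟨hN, m1, m2⟩, hq, hη⟩, T, hp⟩ hB0 d h z hz
  have hcK : 0 < q.cK := hp.1.2.2.2.1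
  have N := hN d h .zI (Or.inl rfl) z hz
  obtain ⟨nu, hE2⟩ := N.I (Or.inl rfl)
  have hS := S2_nn hq T.c0 hcK
  obtain ⟨g1, g2⟩ := sq1_I (z := z) hq hη h T.c0 hcK
  have hE : 0 < d.E q z := Real.exp_pos _
  have hK : 0 < d.Kf q z := K_pos h _
  have hM0 := T.M1
  have hNM : q.M₀ ≤ d.N q z := N.M0
  have hNE : d.N q z ≤ d.E q z := N.NE.trans (by nlinarith [T.aC1])
  have hKl : q.M₀ ^ (9 / 10 : ℝ) ≤ d.Kf q z :=
    (Real.rpow_le_rpow (by linarith) hNM (by norm_num)).trans nu.Kl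
  set P := B q * S2 n q with hP
  have hP0 : 0 ≤ P := mul_nonneg hB0 hS
  set x := d.E q z / d.Kf q z with hx
  have hx0 : 0 ≤ x := by positivity
  have e1 : B q * sq1 (d.ch q .zI) z ≤ P * (1 + x) := by
    have := mul_le_mul_of_nonneg_left g1 hB0
    rw [hP]; linarith
  have e2 : B q * sqp (d.ch q .zI) z ≤ P := mul_le_mul_of_nonneg_left g2 hB0
  have e3 : P * x ≤ d.E q z / 3 := by
    rw [hx, ← mul_div_assoc, div_le_div_iff₀ hK (by norm_num)]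
    have : 3 * P ≤ d.Kf q z := m2.trans hKl
    nlinarith
  have e4 : P ≤ d.E q z / 3 := by linarith
  have e5 : B q * sq1 (d.ch q .zI) z ≤ d.E q z := by nlinarith
  constructor
  · calc B q * (d.E q z * sq1 (d.ch q .zI) z) = d.E q z * (B q * sq1 (d.ch q .zI) z) := by ring
      _ ≤ d.E q z * d.E q z := mul_le_mul_of_nonneg_left e5 hE.le
      _ = _ := by ring
  · have e6 : d.E q z * (B q * sqp (d.ch q .zI) z) ≤ d.E q z * P :=
      mul_le_mul_of_nonneg_left e2 hE.le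
    have e7 : d.E q z * (3 * P) ≤ d.E q z * d.N q z :=
      mul_le_mul_of_nonneg_left (m1.trans hNM) hE.le
    have e8 : d.E q z * 1 ≤ d.E q z * d.N q z :=
      mul_le_mul_of_nonneg_left (by linarith) hE.le
    have hN0 : 0 < d.N q z := by linarith
    have e9 : P * x ≤ d.E q z * d.N q z / 3 := by linarith
    have e10 : P ≤ d.E q z * P := by
      have : 1 ≤ d.E q z := by linarith
      nlinarith
    linarith

/-- The tubes are off the diagonal. -/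
theorem tube_r (hc0 : 0 < q.c₀) (hm : |2 * rq (gi d.s₁) z - qq z| ≤ 1 / 2 * qq z)
    (h : rx q d z ^ 2 + ry q d z ^ 2 ≠ 0) : q.c₀ ^ 2 / 32 ≤ d.r2 z := by
  have e : d.r2 z = 2 * rq (gi d.s₁) z := rfl
  have hr : H338.TC.rr q z ≠ 0 := by
    intro h0
    apply h
    unfold rx ry
    rw [h0]
    simp
  have h1 : 0 < 16 * qq z / q.c₀ ^ 2 - 1 := by
    by_contra hc
    exact hr (Real.smoothTransition.zero_of_nonpos (not_lt.1 hc))
  have h2 : q.c₀ ^ 2 < 16 * qq z := by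
    have hc2 : 0 < q.c₀ ^ 2 := by positivity
    have h3 : 1 < 16 * qq z / q.c₀ ^ 2 := by linarith
    rwa [one_lt_div hc2] at h3
  have h3 := (abs_le.1 hm).1
  rw [e]
  linarith

theorem rxy_le : rx q d z ^ 2 + ry q d z ^ 2 ≤ 2 := by
  have h1 : ∀ a b : ℝ, 0 ≤ a → a ≤ 1 → 0 ≤ b → b ≤ 1 → (a * b) ^ 2 ≤ 1 := by
    intro a b a0 a1 b0 b1
    have : a * b ≤ 1 := mul_le_one₀ a1 b0 b1
    exact pow_le_one₀ (mul_nonneg a0 b0) this
  unfold rx ry H338.TC.rr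
  have := h1 _ _ (Real.smoothTransition.nonneg (16 * Vale.Agent.P088.R2.H31.EP.qq z / q.c₀ ^ 2 - 1))
    (Real.smoothTransition.le_one _) (Real.smoothTransition.nonneg (1 - d.tx q (4 * q.rT) z))
    (Real.smoothTransition.le_one _)
  have := h1 _ _ (Real.smoothTransition.nonneg (16 * Vale.Agent.P088.R2.H31.EP.qq z / q.c₀ ^ 2 - 1))
    (Real.smoothTransition.le_one _) (Real.smoothTransition.nonneg (1 - d.ty q (4 * q.rT) z))
    (Real.smoothTransition.le_one _)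
  linarith

end Vale.Agent.P088.R2.H972.EP
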